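import Vale.Agent.P223.X.All

namespace Vale.Agent.Results.P223.ClosedManifolds

open scoped ContDiff
open MeasureTheory Vale.Agent.P223.J

/-- `‖M‖ ≤ a ∫ h^(n/2) dμ`. -/
def Bd {n : ℕ} {M : Type} [TopologicalSpace M] [MeasurableSpace M] (c : M → Ch n M) (a : ℝ)
    (μ : Measure M) (h : M → ℝ) : Prop := sv c ≤ ENNReal.ofReal a * L n μ h

/-- `‖M‖ ≤ a ∫ (Scal⁻)^(n/2)` for the metric `g` and, if its scalar curvature is a negative
constant, for all metrics conformal to `g`. -/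
def BdC {n : ℕ} {M : Type} [TopologicalSpace M] [MeasurableSpace M] (c : M → Ch n M) (a : ℝ)
    (μ : Measure M) (g : M → Mtx n) : Prop :=
  Bd c a μ (sn c g) ∧ ∀ s : ℝ, 0 < s → (∀ p, scal (g p) (c p p) = -s) →
    ∀ (f : M → ℝ) (μ' : Measure M), Sm c f → Vol c (conf c f g) μ' →
      Bd c a μ' (sn c (conf c f g))

/-- Let `M` be a closed connected oriented smooth manifold of dimension `n ≥ 4` (`c` is an oriented
smooth atlas), `κ = n - 2 + √n`.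
(1) If `g t`, `t ≥ 0`, is a Ricci flow on `M` then `‖M‖ ≤ (κ^2/(n-2))^(n/2) ∫ (Scal⁻)^(n/2)` for the
initial metric `g 0`; if the scalar curvature of `g 0` is a negative constant the same holds for
all metrics conformal to `g 0`.
(2) If `g t` is a smooth family of metrics, `Ric + ∂g/∂t / 2 ≥ -ρ g` and
`tr ∂g/∂t / 2 ≤ σ` for `t ≥ 0`, and `∫ max(0, ρ + σ/(n-2))^(n/2) ≤ B` for `t ≥ 0` then
`‖M‖ ≤ κ^n B`.
(3) If `Ric ≥ -ρ g` then `‖M‖ ≤ κ^n ∫ ρ^(n/2)`; in particular, if `Ric ≥ -C Scal⁻ g` then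
`‖M‖ ≤ κ^n C^(n/2) ∫ (Scal⁻)^(n/2)`; if moreover `Scal` is a negative constant, the same holds for
all metrics conformal to `g`.
(4) If `g` minimises `∫ (Scal⁻)^(n/2)` and the minimum is positive then
`‖M‖ ≤ (κ^2/n)^(n/2) ∫ (Scal⁻)^(n/2)` for all metrics on `M`. -/
theorem result (n : ℕ) (hn : 4 ≤ n) (M : Type) [TopologicalSpace M] [CompactSpace M] [T2Space M]
    [ConnectedSpace M] [MeasurableSpace M] [BorelSpace M] (c : M → Ch n M) (hc : Atl c) :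
    (∀ (g : ℝ → M → Mtx n) (μ : Measure M), RF c g → Vol c (g 0) μ →
      BdC c ((kap n ^ 2 / (n - 2)) ^ ((n : ℝ) / 2)) μ (g 0)) ∧
    (∀ (g : ℝ → M → Mtx n) (μ : ℝ → Measure M) (ρ σ : ℝ → M → ℝ) (B : ENNReal), Fam c g →
      Continuous (fun p : ℝ × M => ρ p.1 p.2) → Continuous (fun p : ℝ × M => σ p.1 p.2) →
      (∀ t, 0 ≤ t → Vol c (g t) (μ t) ∧ Mv c g (ρ t) (σ t) t ∧
        L n (μ t) (fun p => max 0 (ρ t p + σ t p / ((n : ℝ) - 2))) ≤ B) →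
      sv c ≤ ENNReal.ofReal (kap n ^ n) * B) ∧
    ∀ (g : M → Mtx n) (μ : Measure M), Met c g → Vol c g μ →
      (∀ ρ : M → ℝ, Continuous ρ → (∀ p, 0 ≤ ρ p) → RicGe c g ρ → Bd c (kap n ^ n) μ ρ) ∧
      (∀ C : ℝ, 0 ≤ C → RicGe c g (fun p => C * sn c g p) →
        BdC c (kap n ^ n * C ^ ((n : ℝ) / 2)) μ g) ∧
      (Mini c (L n μ (sn c g)) → L n μ (sn c g) ≠ 0 → ∀ (g' : M → Mtx n) (μ' : Measure M),
        Met c g' → Vol c g' μ' → Bd c ((kap n ^ 2 / n) ^ ((n : ℝ) / 2)) μ' (sn c g')) := by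
  have hb := Vale.Agent.P223.X.hb
  have hu := Vale.Agent.P223.X.hu
  have key : ∀ (a : ℝ) (g : M → Mtx n) (μ : Measure M), Met c g → Vol c g μ →
      Bd c a μ (sn c g) → BdC c a μ g := fun a g μ hg hμ h =>
    ⟨h, fun s hs hsc f μ' hf hμ' => h.trans (mul_le_mul_right
      (Vale.Agent.P223.X.FinalM.conf_le hb hu hn hc g μ hg hμ s hs hsc f μ' hf hμ') _)⟩
  refine ⟨fun g μ hg hμ => key _ _ _ (hg.met 0 le_rfl) hμ
    (Vale.Agent.P223.X.FinalM.ricciFlow hb hu hn hc g μ hg hμ), fun g μ ρ σ B hg hρ hσ h =>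
    Vale.Agent.P223.X.MvU.moving hb hu hn hc g μ hg ρ σ hρ hσ B h, fun g μ hg hμ =>
    ⟨fun ρ h1 h2 h3 => Vale.Agent.P223.X.FinalM.ricci hb hu hn hc g μ hg hμ ρ h1 h2 h3,
      fun C hC h => key _ _ _ hg hμ ?_, fun h1 h2 g' μ' hg' hμ' =>
      Vale.Agent.P223.X.FinalM.minimizer hb hu hn hc g μ hg hμ h1 h2 g' μ' hg' hμ'⟩⟩
  exact Vale.Agent.P223.X.FinalM.pinched hb hu hn hc g μ hg hμ C hC h

end Vale.Agent.Results.P223.ClosedManifolds
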