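import Vale.Agent.P223.H959.Main

/-!
# P223: the inequality for Hermitian metrics on Kähler manifolds with nef canonical bundle, and for
# classes of metrics on all closed manifolds
-/

namespace Vale.Agent.Results.P223.KahlerAndClosed

open scoped ContDiff
open MeasureTheory Vale.Agent.P223

/-- `‖M‖ ≤ a ∫ h^(n/2) dμ`. -/
def Bd {n : ℕ} {M : Type} [TopologicalSpace M] [MeasurableSpace M] (c : M → J.Ch n M) (a : ℝ)
    (μ : Measure M) (h : M → ℝ) : Prop := J.sv c ≤ ENNReal.ofReal a * J.L n μ h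

/-- `‖M‖ ≤ a ∫ (Scal⁻)^(n/2)` for the metric `g` and, if its scalar curvature is a negative
constant, for all metrics conformal to `g`. -/
def BdC {n : ℕ} {M : Type} [TopologicalSpace M] [MeasurableSpace M] (c : M → J.Ch n M) (a : ℝ)
    (μ : Measure M) (g : M → J.Mtx n) : Prop :=
  Bd c a μ (J.sn c g) ∧ ∀ s : ℝ, 0 < s → (∀ p, J.scal (g p) (c p p) = -s) →
    ∀ (f : M → ℝ) (μ' : Measure M), J.Sm c f → J.Vol c (J.conf c f g) μ' →
      Bd c a μ' (J.sn c (J.conf c f g))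

/-- (1) Let `X` be a closed complex manifold of real dimension `n ≥ 3` with an auxiliary Hermitian
metric `h`, `f : Y → X` a `d`-sheeted covering by a closed manifold, with the lifted atlas (for
instance `Y = X`), and `g` any Hermitian metric on `Y`, `I` the integral of `(Scal_g^- / n)^(n/2)`.
(1a) If for every `eta > 0` there is a Kähler metric `g0` on `X` such that `Ric(g0) ≤ -g0 + eta h`
and `vol(X, g0) ≥ V`, then `d V ≤ I`, `V ‖Y‖ ≤ ‖X‖ I`, and `‖Y‖ ≤ C I` whenever `‖X‖ ≤ C V`.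
(1b) If `X` is connected and for every `eta > 0` there is a Kähler metric `g0` on `X` such that
`-g0 ≤ Ric(g0) ≤ -g0 + eta h` (by Yau's theorem this holds for every closed Kähler manifold with
nef canonical bundle), then `‖Y‖ ≤ κ^n I`, `κ = n - 2 + √n`.
(2) Let `M` be a closed connected oriented smooth manifold of dimension `n ≥ 4` (`c` is an oriented
smooth atlas).
(2a) If `g t`, `t ≥ 0`, is a Ricci flow on `M` then `‖M‖ ≤ (κ^2/(n-2))^(n/2) ∫ (Scal⁻)^(n/2)` for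
the initial metric `g 0`; if the scalar curvature of `g 0` is a negative constant the same holds
for all metrics conformal to `g 0`.
(2b) If `g t` is a smooth family of metrics, `Ric + ∂g/∂t / 2 ≥ -ρ g` and
`tr ∂g/∂t / 2 ≤ σ` for `t ≥ 0`, and `∫ max(0, ρ + σ/(n-2))^(n/2) ≤ B` for `t ≥ 0` then
`‖M‖ ≤ κ^n B`.
(2c) If `Ric ≥ -ρ g` then `‖M‖ ≤ κ^n ∫ ρ^(n/2)`; in particular, if `Ric ≥ -C Scal⁻ g` then
`‖M‖ ≤ κ^n C^(n/2) ∫ (Scal⁻)^(n/2)`; if moreover `Scal` is a negative constant, the same holds for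
all metrics conformal to `g`.
(2d) If `g` minimises `∫ (Scal⁻)^(n/2)` and the minimum is positive then
`‖M‖ ≤ (κ^2/n)^(n/2) ∫ (Scal⁻)^(n/2)` for all metrics on `M`. -/
theorem result :
    (∀ (n : ℕ), 3 ≤ n → ∀ (A : Matrix (Fin n) (Fin n) ℝ), A * A = -1 →
      ∀ (X : Type) [TopologicalSpace X] [T2Space X] [CompactSpace X] [MeasurableSpace X]
      [BorelSpace X] (c : X → K.Ch n X), K.Atl A c →
      ∀ (h : X → (Fin n → ℝ) → Matrix (Fin n) (Fin n) ℝ), K.Herm A c h →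
      ∀ (d : ℕ) (Y : Type) [TopologicalSpace Y] [T2Space Y] [CompactSpace Y] [MeasurableSpace Y]
      [BorelSpace Y] (c' : Y → K.Ch n Y), K.Atl A c' → ∀ (f : Y → X), IsCoveringMap f →
      (∀ p, (f ⁻¹' {p}).encard = d) → (∀ q p x, K.At (c' q) p x → K.At (c (f q)) (f p) x) →
      ∀ (g : Y → (Fin n → ℝ) → Matrix (Fin n) (Fin n) ℝ), K.Herm A c' g →
      ∀ μ : Measure Y, K.Vol c' g μ →
      (∀ V : ENNReal, (∀ eta : ℝ, 0 < eta → ∃ g0 μ0, K.Herm A c g0 ∧ K.Kah A c g0 ∧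
          K.RicLe c g0 h eta ∧ K.Vol c g0 μ0 ∧ V ≤ μ0 Set.univ) →
        d * V ≤ K.I c' g μ ∧ V * K.sv c' ≤ K.sv c * K.I c' g μ ∧
          ∀ C : ENNReal, K.sv c ≤ C * V → K.sv c' ≤ C * K.I c' g μ) ∧
      (ConnectedSpace X → (∀ eta : ℝ, 0 < eta → ∃ g0 μ0, K.Herm A c g0 ∧ K.Kah A c g0 ∧
          K.RicLe c g0 h eta ∧
          (∀ a p x, K.At (c a) p x → (g0 a x + K.ric (g0 a) x).PosSemidef) ∧ K.Vol c g0 μ0) →
        K.sv c' ≤ ENNReal.ofReal (J.kap n ^ n) * K.I c' g μ)) ∧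
    ∀ (n : ℕ), 4 ≤ n → ∀ (M : Type) [TopologicalSpace M] [CompactSpace M] [T2Space M]
      [ConnectedSpace M] [MeasurableSpace M] [BorelSpace M] (c : M → J.Ch n M), J.Atl c →
      (∀ (g : ℝ → M → J.Mtx n) (μ : Measure M), J.RF c g → J.Vol c (g 0) μ →
        BdC c ((J.kap n ^ 2 / (n - 2)) ^ ((n : ℝ) / 2)) μ (g 0)) ∧
      (∀ (g : ℝ → M → J.Mtx n) (μ : ℝ → Measure M) (ρ σ : ℝ → M → ℝ) (B : ENNReal), J.Fam c g →
        Continuous (fun p : ℝ × M => ρ p.1 p.2) → Continuous (fun p : ℝ × M => σ p.1 p.2) →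
        (∀ t, 0 ≤ t → J.Vol c (g t) (μ t) ∧ J.Mv c g (ρ t) (σ t) t ∧
          J.L n (μ t) (fun p => max 0 (ρ t p + σ t p / ((n : ℝ) - 2))) ≤ B) →
        J.sv c ≤ ENNReal.ofReal (J.kap n ^ n) * B) ∧
      ∀ (g : M → J.Mtx n) (μ : Measure M), J.Met c g → J.Vol c g μ →
        (∀ ρ : M → ℝ, Continuous ρ → (∀ p, 0 ≤ ρ p) → J.RicGe c g ρ →
          Bd c (J.kap n ^ n) μ ρ) ∧
        (∀ C : ℝ, 0 ≤ C → J.RicGe c g (fun p => C * J.sn c g p) →
          BdC c (J.kap n ^ n * C ^ ((n : ℝ) / 2)) μ g) ∧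
        (J.Mini c (J.L n μ (J.sn c g)) → J.L n μ (J.sn c g) ≠ 0 →
          ∀ (g' : M → J.Mtx n) (μ' : Measure M), J.Met c g' → J.Vol c g' μ' →
            Bd c ((J.kap n ^ 2 / n) ^ ((n : ℝ) / 2)) μ' (J.sn c g')) := by
  constructor
  · intro n hn A hA X _ _ _ _ _ c hX h hh d Y _ _ _ _ _ c' hY f hf hd hl g hg μ hμ
    exact ⟨fun V hV => Kfinal hn hA hX hh hV hY hf hd hl hg hμ,
      fun _ hV => H959.kahler hn hA hX hh hV hY hf hd hl hg hμ⟩
  · intro n hn M _ _ _ _ _ _ c hc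
    have hb := X.hb
    have hu := X.hu
    have key : ∀ (a : ℝ) (g : M → J.Mtx n) (μ : Measure M), J.Met c g → J.Vol c g μ →
        Bd c a μ (J.sn c g) → BdC c a μ g := fun a g μ hg hμ h =>
      ⟨h, fun s hs hsc f μ' hf hμ' => h.trans (mul_le_mul_right
        (X.FinalM.conf_le hb hu hn hc g μ hg hμ s hs hsc f μ' hf hμ') _)⟩
    refine ⟨fun g μ hg hμ => key _ _ _ (hg.met 0 le_rfl) hμ
      (X.FinalM.ricciFlow hb hu hn hc g μ hg hμ), fun g μ ρ σ B hg hρ hσ h =>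
      X.MvU.moving hb hu hn hc g μ hg ρ σ hρ hσ B h, fun g μ hg hμ =>
      ⟨fun ρ h1 h2 h3 => X.FinalM.ricci hb hu hn hc g μ hg hμ ρ h1 h2 h3,
        fun C hC h => key _ _ _ hg hμ ?_, fun h1 h2 g' μ' hg' hμ' =>
        X.FinalM.minimizer hb hu hn hc g μ hg hμ h1 h2 g' μ' hg' hμ'⟩⟩
    exact X.FinalM.pinched hb hu hn hc g μ hg hμ C hC h

end Vale.Agent.Results.P223.KahlerAndClosed
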