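import Vale.Agent.P223.H.DefBridge
import Vale.Agent.P223.H.DefSv

namespace Vale.Agent.Results.P223.RicciFlow

open scoped ContDiff
open Vale.Agent.P223.D Vale.Agent.P223.H.DefBridge

/-- `‖M‖ ≤ c ∫ h^(n/2)` for `M = ℝ^n / Γ` with the metric `G` and the fundamental domain `D`. -/
def Bd (n : ℕ) (Γ : Type) [Group Γ] [MulAction Γ (E n)] (D : Set (E n)) (c : ℝ) (G : Mtx n)
    (h : E n → ℝ) : Prop := sv n Γ ≤ ENNReal.ofReal c * L G D h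

/-- Let `M = ℝ^n / Γ` be a closed oriented manifold, `n ≥ 4`, `D` a Borel fundamental domain (so that
`L G D h` is the integral of `h^(n/2)` over `M`), `κ = n - 2 + √n`.
(1) If `G t`, `t ≥ 0`, is a Ricci flow on `M` then `‖M‖ ≤ (κ^2/(n-2))^(n/2) ∫ (Scal⁻)^(n/2)` for the
initial metric `G 0`; if the scalar curvature of `G 0` is a negative constant the same holds for
all metrics conformal to `G 0`.
(2) If `G t` is a smooth family of metrics, `Ric + ∂G/∂t / 2 ≥ -ρ G` and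
`tr ∂G/∂t / 2 ≤ σ` for `t ≥ 0`, and `∫ max(0, ρ + σ/(n-2))^(n/2) ≤ B` for `t ≥ 0` then
`‖M‖ ≤ κ^n B`.
(3) If `Ric ≥ -ρ G` then `‖M‖ ≤ κ^n ∫ ρ^(n/2)`; in particular, if `Ric ≥ -C Scal⁻ G` then
`‖M‖ ≤ κ^n C^(n/2) ∫ (Scal⁻)^(n/2)`; if moreover `Scal` is a negative constant, the same holds for
all metrics conformal to `G`.
(4) If `G` minimises `∫ (Scal⁻)^(n/2)` and the minimum is positive then
`‖M‖ ≤ (κ^2/n)^(n/2) ∫ (Scal⁻)^(n/2)` for all metrics on `M`. -/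
theorem result (n : ℕ) (hn : 4 ≤ n) (Γ : Type) [Group Γ] [MulAction Γ (E n)] (hΓ : Act n Γ)
    (D : Set (E n)) (hD : MeasurableSet D) (hD' : ∀ x : E n, ∃! γ : Γ, γ • x ∈ D) :
    (∀ G : ℝ → Mtx n, RF n Γ G →
      Bd n Γ D ((kap n ^ 2 / (n - 2)) ^ ((n : ℝ) / 2)) (G 0) (sn (G 0)) ∧
      ∀ s : ℝ, 0 < s → (∀ x, scal (G 0) x = -s) → ∀ f : E n → ℝ, ContDiff ℝ ∞ f → Inv Γ f →
        Bd n Γ D ((kap n ^ 2 / (n - 2)) ^ ((n : ℝ) / 2)) (conf f (G 0)) (sn (conf f (G 0)))) ∧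
    (∀ (G : ℝ → Mtx n) (ρ σ : ℝ → E n → ℝ) (B : ENNReal), Fam n Γ G →
      Continuous (fun p : ℝ × E n => ρ p.1 p.2) → Continuous (fun p : ℝ × E n => σ p.1 p.2) →
      (∀ t, Inv Γ (ρ t) ∧ Inv Γ (σ t)) →
      (∀ t, 0 ≤ t → (∀ x w, -ρ t x * bil (G t x) w w ≤
          bil (fun i j => ric (G t) x i j + 1 / 2 * dtG G t x i j) w w) ∧
        (∀ x, 1 / 2 * ∑ i, ∑ j, (G t x)⁻¹ i j * dtG G t x i j ≤ σ t x) ∧
        L (G t) D (fun x => max 0 (ρ t x + σ t x / ((n : ℝ) - 2))) ≤ B) →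
      sv n Γ ≤ ENNReal.ofReal (kap n ^ n) * B) ∧
    (∀ G : Mtx n, Met n Γ G →
      (∀ ρ : E n → ℝ, Continuous ρ → (∀ x, 0 ≤ ρ x) → Inv Γ ρ → RicGe G ρ →
        Bd n Γ D (kap n ^ n) G ρ) ∧
      (∀ C : ℝ, 0 ≤ C → RicGe G (fun x => C * sn G x) →
        Bd n Γ D (kap n ^ n * C ^ ((n : ℝ) / 2)) G (sn G) ∧
        ∀ s : ℝ, 0 < s → (∀ x, scal G x = -s) → ∀ f : E n → ℝ, ContDiff ℝ ∞ f → Inv Γ f →
          Bd n Γ D (kap n ^ n * C ^ ((n : ℝ) / 2)) (conf f G) (sn (conf f G))) ∧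
      (Mini n Γ D G → L G D (sn G) ≠ 0 → ∀ G' : Mtx n, Met n Γ G' →
        Bd n Γ D ((kap n ^ 2 / n) ^ ((n : ℝ) / 2)) G' (sn G'))) := by
  have hD'' : ∀ x : E n, ∃ γ : Γ, γ • x ∈ D := fun x => (hD' x).exists
  have h0 := Vale.Agent.P223.H.DefSv.sv_le n Γ
  refine ⟨fun G hG => ?_, fun G ρ σ B hG h1 h2 h3 h4 => ?_, fun G hG => ⟨?_, fun C hC h => ?_, ?_⟩⟩
  · have h1 := h0.trans (Vale.Agent.P223.H.Final2.ricciFlow n hn Γ (act hΓ) G (rf hG) D hD hD'')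
    exact ⟨h1, fun s hs h f hf hfi => h1.trans (mul_le_mul_right
      (Vale.Agent.P223.H.Final2.conf_le n hn Γ (act hΓ) (G 0) (met (hG.met 0 le_rfl)) D hD hD' s hs h
        f hf hfi) _)⟩
  · exact h0.trans (Vale.Agent.P223.H.Final2.moving n hn Γ (act hΓ) G (fam hG) D hD hD'' ρ σ h1 h2
      (fun t => (h3 t).1) (fun t => (h3 t).2) (fun t ht => (h4 t ht).1) (fun t ht => (h4 t ht).2.1) B
      (fun t ht => (h4 t ht).2.2))
  · exact fun ρ h1 h2 h3 h4 => h0.trans (Vale.Agent.P223.H.Final.ricci n hn Γ (act hΓ) G (met hG) D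
      hD hD'' ρ h1 h2 h3 h4)
  · have h1 := h0.trans (Vale.Agent.P223.H.Final.pinched n hn Γ (act hΓ) G (met hG) D hD hD'' C
      hC h)
    exact ⟨h1, fun s hs h f hf hfi => h1.trans (mul_le_mul_right
      (Vale.Agent.P223.H.Final2.conf_le n hn Γ (act hΓ) G (met hG) D hD hD' s hs h f hf hfi) _)⟩
  · exact fun h h1 G' hG' => h0.trans (Vale.Agent.P223.H.Final2.minimizer n hn Γ (act hΓ) D hD hD' G
      (met hG) (fun G₁ hG₁ => h G₁ (met' hG₁)) h1 G' (met hG'))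

end Vale.Agent.Results.P223.RicciFlow
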