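import Vale.Agent.P223.H.DefBridge
import Vale.Agent.P223.H.DefSv

namespace Vale.Agent.Results.P223.RicciIntegral

open scoped ContDiff
open Vale.Agent.P223.D Vale.Agent.P223.H.DefBridge

/-- Let `M = ℝ^n / Γ` be a closed oriented manifold, `n ≥ 4`, `D` a Borel fundamental domain (so that
`L G D h` is the integral of `h^(n/2)` over `M`), `G` a Riemannian metric on `M`, `κ = n - 2 + √n`.
(1) `‖M‖ ≤ κ^n ∫ ρ^(n/2)` if `Ric ≥ -ρ G`. (2) `‖M‖ ≤ κ^n C^(n/2) ∫ (Scal⁻)^(n/2)` if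
`Ric ≥ -C Scal⁻ G`. (3) The same with `C = 1` if `Ric ≤ 0`. (4) If `Scal ≤ -s < 0` and
`Ric ≥ -C s G` then (2) holds for all metrics conformal to `G`. (5) If `G` minimises
`∫ (Scal⁻)^(n/2)` and the minimum is positive then `‖M‖ ≤ (κ^2/n)^(n/2) ∫ (Scal⁻)^(n/2)` for all
metrics on `M`. -/
theorem result (n : ℕ) (hn : 4 ≤ n) (Γ : Type) [Group Γ] [MulAction Γ (E n)] (hΓ : Act n Γ)
    (D : Set (E n)) (hD : MeasurableSet D) (hD' : ∀ x : E n, ∃! γ : Γ, γ • x ∈ D)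
    (G : Mtx n) (hG : Met n Γ G) :
    (∀ ρ : E n → ℝ, Continuous ρ → (∀ x, 0 ≤ ρ x) → Inv Γ ρ → RicGe G ρ →
      sv n Γ ≤ ENNReal.ofReal (kap n ^ n) * L G D ρ) ∧
    (∀ C : ℝ, 0 ≤ C → RicGe G (fun x => C * sn G x) →
      sv n Γ ≤ ENNReal.ofReal (kap n ^ n * C ^ ((n : ℝ) / 2)) * L G D (sn G)) ∧
    (RicNonpos G → sv n Γ ≤ ENNReal.ofReal (kap n ^ n) * L G D (sn G)) ∧
    (∀ s C : ℝ, 0 < s → 0 ≤ C → (∀ x, scal G x ≤ -s) → RicGe G (fun _ => C * s) →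
      ∀ f : E n → ℝ, ContDiff ℝ ∞ f → Inv Γ f →
      sv n Γ ≤ ENNReal.ofReal (kap n ^ n * C ^ ((n : ℝ) / 2)) * L (conf f G) D (sn (conf f G))) ∧
    (Mini n Γ D G → L G D (sn G) ≠ 0 → ∀ G' : Mtx n, Met n Γ G' →
      sv n Γ ≤ ENNReal.ofReal ((kap n ^ 2 / n) ^ ((n : ℝ) / 2)) * L G' D (sn G')) := by
  have hD'' : ∀ x : E n, ∃ γ : Γ, γ • x ∈ D := fun x => (hD' x).exists
  have h0 := Vale.Agent.P223.H.DefSv.sv_le n Γ
  exact ⟨fun ρ h1 h2 h3 h4 => h0.trans (Vale.Agent.P223.H.Final.ricci n hn Γ (act hΓ) G (met hG) D hD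
      hD'' ρ h1 h2 h3 h4),
    fun C hC h => h0.trans (Vale.Agent.P223.H.Final.pinched n hn Γ (act hΓ) G (met hG) D hD hD'' C
      hC h),
    fun h => h0.trans (Vale.Agent.P223.H.Final.nonpos n hn Γ (act hΓ) G (met hG) D hD hD'' h),
    fun s C hs hC h1 h2 f hf hfi => h0.trans (Vale.Agent.P223.H.Final.conformal n hn Γ (act hΓ) G
      (met hG) D hD hD'' s C hs hC h1 h2 f hf hfi),
    fun h h1 G' hG' => h0.trans (Vale.Agent.P223.H.Final2.minimizer n hn Γ (act hΓ) D hD hD' G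
      (met hG) (fun G₁ hG₁ => h G₁ (met' hG₁)) h1 G' (met hG'))⟩

end Vale.Agent.Results.P223.RicciIntegral
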